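import Vale.Agent.P352W.Cn.Defs

/-!
# P352W CH0: plane waves and the solution of the wave equation attached to a test function
-/

set_option linter.all false

open MeasureTheory

namespace Vale.Agent.P352W.Ch

open Vale.Agent.P352.GF Vale.Agent.P352W.Cn

noncomputable section

/-- plane waves -/
def ep (p x : V) : ℂ := Complex.exp (Complex.I * mdot p x)

/-- the commutator function, smeared with `g` -/
def uu (g : Fn) (x : V) : ℂ := ∫ q, (ft g q * ep (-q) x - ft g (-q) * ep q x) ∂Om

/-- `∂^m (uu g) = -i wv g m` -/
def wv (g : Fn) (m : Ix) (x : V) : ℂ :=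
  ∫ q, (q m : ℂ) * (ft g q * ep (-q) x + ft g (-q) * ep q x) ∂Om

theorem ft_ep (f : Fn) (p : V) : ft f p = ∫ x, f x * ep p x := rfl

theorem norm_ep (p x : V) : ‖ep p x‖ = 1 := by
  unfold ep
  rw [mul_comm]
  exact Complex.norm_exp_ofReal_mul_I _

theorem cont_ep : Continuous fun z : V × V => ep z.1 z.2 := by
  unfold ep
  exact Complex.continuous_exp.comp (continuous_const.mul
    (Complex.continuous_ofReal.comp continuous_mdot))

theorem cont_ep1 (p : V) : Continuous (ep p) := cont_ep.comp (continuous_const.prodMk continuous_id)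

theorem cont_ep2 (x : V) : Continuous fun p => ep p x :=
  cont_ep.comp (continuous_id.prodMk continuous_const)

theorem ep_add (p q x : V) : ep (p + q) x = ep p x * ep q x := by
  unfold ep
  rw [← Complex.exp_add]
  congr 1
  simp only [mdot, Pi.add_apply, mul_add, add_mul, Finset.sum_add_distrib, Complex.ofReal_add]

end

end Vale.Agent.P352W.Ch
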