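import Vale.Agent.P352W.Ch.Br
import Vale.Agent.P352W.Cn.Pj
import Vale.Agent.P352W.Cn.Ft

/-! # P352W CH0: the Noether identity -/

set_option linter.all false

open Set Filter Topology MeasureTheory
open scoped ContDiff FourierTransform Real
open Complex (I exp)

namespace Vale.Agent.P352W.Ch.Nc

open Vale.Agent.P352.GF Vale.Agent.P352W.Cn Vale.Agent.P352W.Ft
open Vale.Agent.P352.H15 (IsSim)

noncomputable section

/-- superpositions of plane waves -/
def E (α : Fn) (x : V) : ℂ := ∫ q, α q * ep q x ∂Om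

theorem E_eq (α : Fn) :
    E α = VectorFourier.fourierIntegral 𝐞 Om ((-(2 * π)⁻¹) • mdL).toLinearMap₁₂ α := by
  funext p
  rw [Real.vector_fourierIntegral_eq_integral_exp_smul]
  refine integral_congr_ae (ae_of_all _ fun z => ?_)
  simp only [smul_eq_mul, mul_comm (α z), ep]
  congr 2
  rw [mul_comm I]
  congr 2
  simp [Real.pi_ne_zero]; field_simp

variable {α g U : Fn}

theorem mom (h : IsTest α) (n : ℕ) : Integrable (fun v => ‖v‖ ^ n * ‖α v‖) Om := by
  have := (int_om h (u := fun p => ((‖p‖ ^ n : ℝ) : ℂ)) (C := 1) (N := n)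
    (Continuous.aestronglyMeasurable (by fun_prop)) fun p => by
      rw [Complex.norm_real, Real.norm_of_nonneg (by positivity), one_mul]
      gcongr; linarith).norm
  simpa only [norm_mul, Complex.norm_real, norm_pow, norm_norm] using this

theorem E_smooth (h : IsTest α) : ContDiff ℝ ∞ (E α) := by
  rw [E_eq]
  exact VectorFourier.contDiff_fourierIntegral _ (N := ⊤) fun n _ => mom h n

theorem E_fd (h : IsTest α) (x : V) (m : Ix) :
    fderiv ℝ (E α) x (bas m 1) = I * eta m * E (fun q => (q m : ℂ) * α q) x := by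
  have hf : Integrable α Om := test_om h
  have hf' : Integrable (fun z => ‖z‖ * ‖α z‖) Om := by simpa using mom h 1
  have i : Integrable (VectorFourier.fourierSMulRight ((-(2 * π)⁻¹) • mdL) α) Om :=
    (hf'.const_mul (2 * π * ‖(-(2 * π)⁻¹) • mdL‖)).mono' hf.1.fourierSMulRight
      (ae_of_all _ fun z => by
        simpa only [mul_assoc] using VectorFourier.norm_fourierSMulRight_le _ α z)
  have e : I * eta m * E (fun q => (q m : ℂ) * α q) x =
      E (fun q => I * eta m * ((q m : ℂ) * α q)) x := by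
    simp only [E, mul_assoc, integral_const_mul]
  rw [e, E_eq, E_eq, VectorFourier.fderiv_fourierIntegral _ hf hf',
    Real.fourierIntegral_continuousLinearMap_apply' i]
  congr 1
  funext z
  simp [md_bas]
  have : (π : ℂ) ≠ 0 := by simp
  field_simp

theorem ep_neg (q x : V) : ep (-q) x = ep q (-x) := by simp only [ep, md_neg, md_neg_l]

theorem iE (h : IsTest α) (x : V) : Integrable (fun q => α q * ep q x) Om :=
  (test_om h).mul_bdd (c := 1) (cont_ep2 x).aestronglyMeasurable
    (ae_of_all _ fun q => (norm_ep q x).le)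

theorem uu_eq (h : IsTest g) : uu g = fun x => E (ft g) (-x) - E (fun q => ft g (-q)) x := by
  funext x
  simp only [uu, E, ep_neg]
  exact integral_sub (iE (test_ft h) _) (iE (test_neg (test_ft h)) _)

theorem wv_eq (h : IsTest g) (m : Ix) : wv g m = fun x =>
    E (fun q => (q m : ℂ) * ft g q) (-x) + E (fun q => (q m : ℂ) * ft g (-q)) x := by
  funext x
  simp only [wv, E, ep_neg, mul_add, ← mul_assoc]
  exact integral_add (iE (test_x m (test_ft h)) _) (iE (test_x m (test_neg (test_ft h))) _)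

theorem uu_smooth (h : IsTest g) : ContDiff ℝ ∞ (uu g) := by
  rw [uu_eq h]
  exact ((E_smooth (test_ft h)).comp contDiff_neg).sub (E_smooth (test_neg (test_ft h)))

theorem wv_smooth (h : IsTest g) (m : Ix) : ContDiff ℝ ∞ (wv g m) := by
  rw [wv_eq h]
  exact ((E_smooth (test_x m (test_ft h))).comp contDiff_neg).add
    (E_smooth (test_x m (test_neg (test_ft h))))

theorem uu_fd (h : IsTest g) (x : V) (m : Ix) :
    fderiv ℝ (uu g) x (bas m 1) = -(I * eta m) * wv g m x := by
  have d1 := ((E_smooth (test_ft h)).differentiable (by simp) (-x)).hasFDerivAt.comp x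
    (hasFDerivAt_id x).neg
  have d2 := ((E_smooth (test_neg (test_ft h))).differentiable (by simp) x).hasFDerivAt
  have := (d1.sub d2).fderiv
  rw [uu_eq h, wv_eq h]
  refine (congrArg (· (bas m 1)) this).trans ?_
  simp only [ContinuousLinearMap.sub_apply, ContinuousLinearMap.comp_apply,
    ContinuousLinearMap.neg_apply, ContinuousLinearMap.id_apply, map_neg]
  rw [E_fd (test_ft h), E_fd (test_neg (test_ft h))]
  ring

theorem uu_zero (h : IsTest g) {ρ : ℝ} (hρ : 0 ≤ ρ) (hs : tsupport g ⊆ Metric.closedBall 0 ρ)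
    {x : V} (hx : |x o| + 2 * ρ < ‖x‖) : uu g x = 0 := by
  refine pj_pt h fun y hy => ?_
  have hy' : ‖y‖ ≤ ρ := by simpa using hs hy
  obtain ⟨i, hi⟩ : ∃ i, |x o| + 2 * ρ < |x i| := by
    by_contra hn
    push Not at hn
    exact hx.not_ge ((pi_norm_le_iff_of_nonneg (by positivity)).2 hn)
  have a := (norm_le_pi_norm y i).trans hy'
  have b := (norm_le_pi_norm y o).trans hy'
  rw [Real.norm_eq_abs] at a b
  have c : |x o - y o| < |x i - y i| := by
    linarith [abs_sub (x o) (y o), abs_sub_abs_le_abs_sub (x i) (y i)]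
  have c2 := sq_lt_sq.2 c
  rw [mdot_eq]
  revert c2 hi
  refine Fin.cases (fun hi => absurd hi (by show ¬ |x o| + 2 * ρ < |x o|; linarith))
    (fun j _ c2 => ?_) i
  have := Finset.single_le_sum (f := fun k : Fin 3 => (x - y) k.succ * (x - y) k.succ)
    (fun k _ => mul_self_nonneg _) (Finset.mem_univ j)
  simp only [Pi.sub_apply] at this ⊢
  nlinarith

theorem wv_zero (h : IsTest g) {ρ : ℝ} (hρ : 0 ≤ ρ) (hs : tsupport g ⊆ Metric.closedBall 0 ρ)
    (m : Ix) {x : V} (hx : |x o| + 2 * ρ < ‖x‖) : wv g m x = 0 := by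
  have op : IsOpen {x : V | |x o| + 2 * ρ < ‖x‖} := isOpen_lt (by fun_prop) (by fun_prop)
  have e : uu g =ᶠ[𝓝 x] fun _ => 0 := (op.mem_nhds hx : _ ∈ 𝓝 x) |> fun s =>
    Filter.mem_of_superset s fun y hy => uu_zero h hρ hs hy
  have := uu_fd h x m
  rw [e.fderiv_eq, fderiv_const_apply] at this
  have h2 : -(I * eta m) ≠ 0 := by
    have := eta_sqC m
    refine neg_ne_zero.2 (mul_ne_zero Complex.I_ne_zero fun z => ?_)
    simp [z] at this
  exact (mul_eq_zero.1 this.symm).resolve_left h2

theorem test_aff (hU : IsTest U) (c : ℝ) (l : V →L[ℝ] ℝ) :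
    IsTest fun x => ((c + l x : ℝ) : ℂ) * U x := by
  simpa only [Complex.ofReal_add, add_mul] using test_add (test_cmul c hU) (test_lin l hU)

theorem parts (hU : IsTest U) (c : ℝ) (l : V →L[ℝ] ℝ) (h p : V) :
    ft (fun x => ((c + l x : ℝ) : ℂ) * fderiv ℝ U x h) p =
      -(I * mdot p h) * ft (fun x => ((c + l x : ℝ) : ℂ) * U x) p - l h * ft U p := by
  rw [← ft_fd (test_aff hU c l), ← ft_mul, ← ft_sub (test_fd (test_aff hU c l) h) (test_cmul _ hU)]
  congr 1
  funext x
  have d := ((Complex.ofRealCLM.hasFDerivAt.comp x (l.hasFDerivAt.const_add c)).mul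
    (test_diff hU x).hasFDerivAt).fderiv
  refine Eq.symm (sub_eq_iff_eq_add.2 ((congrArg (· h) d).trans ?_))
  simp [mul_comm]

theorem tang {G : Fn} {p v : V} (hG : DifferentiableAt ℝ G p) (h0 : ∀ q, mdot q q = 0 → G q = 0)
    (hp : mdot p p = 0) (hv : mdot p v = 0) (hz : p = 0 → v = 0) : fderiv ℝ G p v = 0 := by
  by_cases z : p = 0
  · rw [hz z, map_zero]
  have p0 : p o ≠ 0 := fun e => z (by
    rw [mdot_eq, e] at hp
    have := (Finset.sum_eq_zero_iff_of_nonneg fun k _ => mul_self_nonneg (p (Fin.succ k))).1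
      (by linarith : ∑ i : Fin 3, p i.succ * p i.succ = 0)
    funext m
    exact Fin.cases e (fun j => mul_self_eq_zero.1 (this j (Finset.mem_univ _))) m)
  obtain ⟨n, nn, np⟩ : ∃ n : V, mdot n n = 0 ∧ mdot n p ≠ 0 := by
    refine ⟨(2 * p o) • bas o 1 - p, ?_, ?_⟩
    · simp only [md_sub, md_sub_l, md_smul, md_smul_l, md_bas, md_comm (bas o 1) p, hp]
      simp [eta, bas]; ring
    · simp only [md_sub_l, md_smul_l, md_comm (bas o 1) p, md_bas, hp]
      simp [eta, p0]
  let k : ℝ → ℝ := fun s => s * (s * mdot v v / (2 * (mdot n p + s * mdot n v)))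
  have ne : ∀ᶠ s in 𝓝 (0 : ℝ), mdot n p + s * mdot n v ≠ 0 :=
    (Continuous.continuousAt (by fun_prop)).eventually_ne (by simpa using np)
  have dk : HasDerivAt k 0 0 := by
    have : DifferentiableAt ℝ (fun s : ℝ => s * mdot v v / (2 * (mdot n p + s * mdot n v))) 0 :=
      DifferentiableAt.div (by fun_prop) (by fun_prop) (by simpa using np)
    exact ((hasDerivAt_id (0 : ℝ)).mul this.hasDerivAt).congr_deriv (by simp)
  have dγ : HasDerivAt (fun s : ℝ => p + s • v - k s • n) v 0 := by
    exact ((((hasDerivAt_id (0 : ℝ)).smul_const v).const_add p).sub (dk.smul_const n)).congr_deriv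
      (by simp)
  have e : (fun s : ℝ => G (p + s • v - k s • n)) =ᶠ[𝓝 0] fun _ => 0 := ne.mono fun s hs => by
    refine h0 _ ?_
    simp only [md_sub, md_sub_l, md_add, md_add_l, md_smul, md_smul_l, hp, hv, nn, md_comm v p,
      md_comm p n, md_comm v n, k]
    field_simp
    ring
  have hG' : HasFDerivAt G (fderiv ℝ G p) (p + (0 : ℝ) • v - k 0 • n) := by
    simpa [k] using hG.hasFDerivAt
  exact (hG'.comp_hasDerivAt (0 : ℝ) dγ).unique ((hasDerivAt_const _ _).congr_of_eventuallyEq e)

/-- the linear form `x ↦ ∑ x m * b m` -/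
def lf (b : V) : V →L[ℝ] ℝ := ∑ m, b m • ContinuousLinearMap.proj m

theorem lf_apply (b x : V) : lf b x = ∑ m, x m * b m := by
  simp [lf, mul_comm]

theorem lf_bas (b : V) (m : Ix) : lf b (bas m 1) = b m := by simp [lf_apply, bas]

/-- the identity for the functions which are cut off in time -/
theorem core {W : Ix → Fn} (hg : IsTest g) (hU : IsTest U) (hW : ∀ m, IsTest (W m))
    (hd : ∀ (i : Fin 3) x, W i.succ x = -I * fderiv ℝ U x (bas i.succ 1))
    (hc : ∀ q, mdot q q = 0 → ft (W o) q + q o * ft U q = (2 * π) ^ 3 * ft g q)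
    {X : V → V} (hX : IsSim 0 X) {p : V} (hp : mdot p p = 0) :
    ∑ n, ft (fun x => (eta n : ℂ) * X x n * (p o * W n x + p n * W o x -
      bas o (eta o) n * ∑ k, eta k * p k * W k x)) p =
      I * (2 * π) ^ 3 * ft (fun x => ∑ n, X x n * pd n g x) p := by
  obtain ⟨c, w, hw, hX⟩ := hX
  have eX : ∀ x n, X x n = c n + lf (fun m => w m n) x := fun x n => by
    rw [hX, lf_apply]; ring
  have w00 := hw 0 0
  have w11 := hw 1 1
  have w22 := hw 2 2
  have w33 := hw 3 3
  have w01 := hw 0 1
  have w02 := hw 0 2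
  have w03 := hw 0 3
  have w12 := hw 1 2
  have w13 := hw 1 3
  have w23 := hw 2 3
  simp [eta, o] at w00 w11 w22 w33 w01 w02 w03 w12 w13 w23
  let v : V := fun m => eta m * ∑ n, eta n * p n * w m n
  have hp' := hp
  simp [mdot, eta, o, Fin.sum_univ_four] at hp'
  have pX : ∀ x, mdot p (X x) = mdot p c + mdL v x := fun x => by
    simp [mdot, hX, v, eta, o, Fin.sum_univ_four]; ring
  have pv : mdot p v = 0 := by
    have z0 : w 0 0 = 0 := by linarith
    have z1 : w 1 1 = 0 := by linarith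
    have z2 : w 2 2 = 0 := by linarith
    have z3 : w 3 3 = 0 := by linarith
    have y1 : w 1 0 = w 0 1 := by linarith
    have y2 : w 2 0 = w 0 2 := by linarith
    have y3 : w 3 0 = w 0 3 := by linarith
    have y4 : w 2 1 = -w 1 2 := by linarith
    have y5 : w 3 1 = -w 1 3 := by linarith
    have y6 : w 3 2 = -w 2 3 := by linarith
    simp [mdot, v, eta, o, Fin.sum_univ_four, z0, z1, z2, z3, y1, y2, y3, y4, y5, y6]
    ring
  have dF : ∀ {f : Fn}, IsTest f → HasFDerivAt (ft f) (fderiv ℝ (ft f) p) p := fun hf =>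
    (test_diff (test_ft hf) p).hasFDerivAt
  have dG := (((dF (hW o)).add ((Complex.ofRealCLM.hasFDerivAt.comp p
    (ContinuousLinearMap.proj (R := ℝ) (φ := fun _ : Ix => ℝ) o).hasFDerivAt).mul (dF hU))).sub
    ((dF hg).const_mul ((2 * π) ^ 3 : ℂ)))
  have tg := tang dG.differentiableAt (fun q hq => sub_eq_zero.2 (hc q hq)) hp pv fun e => by
    funext m; simp [v, e]
  rw [dG.fderiv] at tg
  simp only [ContinuousLinearMap.sub_apply, ContinuousLinearMap.add_apply,
    ContinuousLinearMap.smul_apply, ContinuousLinearMap.comp_apply, smul_eq_mul,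
    ContinuousLinearMap.proj_apply, Complex.ofRealCLM_apply, Function.comp,
    fderiv_ft (hW o), fderiv_ft hU, fderiv_ft hg] at tg
  have af : ∀ {f : Fn}, IsTest f → ft (fun x => (mdot p (X x) : ℂ) * f x) p =
      mdot p c * ft f p + ft (fun z => (mdot v z : ℝ) * f z) p := fun {f} hf => by
    rw [← ft_mul]
    refine Eq.trans ?_ (ft_add (test_cmul _ hf) (test_lin (mdL v) hf) p)
    simp only [pX, Complex.ofReal_add, add_mul]
  have tX : ∀ {f : Fn} n, IsTest f → IsTest fun x => (X x n : ℂ) * f x := fun n hf => by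
    simpa only [eX] using test_aff hf _ _
  have pa : ∀ {f : Fn} n m, IsTest f → ft (fun x => (X x n : ℂ) * fderiv ℝ f x (bas m 1)) p =
      -(I * (eta m * p m : ℝ)) * ft (fun x => (X x n : ℂ) * f x) p - w m n * ft f p :=
    fun n m hf => by simpa only [← eX, lf_bas, md_bas] using parts hf (c n) (lf fun m => w m n) (bas m 1) p
  have sx : ∀ {f : Fn}, IsTest f → ft (fun x => (mdot p (X x) : ℂ) * f x) p =
      ∑ n, (eta n * p n : ℝ) * ft (fun x => (X x n : ℂ) * f x) p := fun {f} hf => by
    simp only [← ft_mul]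
    rw [← ft_sum _ fun n _ => test_cmul _ (tX n hf)]
    congr 1
    funext x
    simp only [mdot, Complex.ofReal_sum, Complex.ofReal_mul, Finset.sum_mul, mul_assoc]
  have xw : ∀ n (i : Fin 3), ft (fun x => (X x n : ℂ) * W i.succ x) p =
      -I * (-(I * (eta i.succ * p i.succ : ℝ)) * ft (fun x => (X x n : ℂ) * U x) p -
        w i.succ n * ft U p) := fun n i => by
    rw [← pa n _ hU, ← ft_mul]
    simp only [hd, mul_left_comm]
  have l : ∀ n, ft (fun x => (eta n : ℂ) * X x n * (p o * W n x + p n * W o x -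
      bas o (eta o) n * ∑ k, eta k * p k * W k x)) p =
      eta n * (p o * ft (fun x => (X x n : ℂ) * W n x) p + p n * ft (fun x => (X x n : ℂ) * W o x) p -
        bas o (eta o) n * ∑ k, eta k * p k * ft (fun x => (X x n : ℂ) * W k x) p) := fun n => by
    have t := fun k => test_cmul (eta k * p k) (tX n (hW k))
    simp only [← ft_mul]
    rw [← ft_sum _ fun k _ => t k, ← ft_mul, ← ft_add (test_cmul _ (tX n (hW n)))
      (test_cmul _ (tX n (hW o))), ← ft_sub (test_add (test_cmul _ (tX n (hW n)))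
      (test_cmul _ (tX n (hW o)))) (test_cmul _ (test_sum _ fun k _ => t k)), ← ft_mul]
    congr 1
    funext x
    simp only [Fin.sum_univ_four]
    ring
  have r : ft (fun x => ∑ n, X x n * pd n g x) p = ∑ n, (-(I * (eta n * p n : ℝ)) *
      ft (fun x => (X x n : ℂ) * g x) p - w n n * ft g p) := by
    rw [ft_sum _ fun n _ => tX n (test_pd hg n)]
    exact Finset.sum_congr rfl fun n _ => by rw [pd_test hg, pa n n hg]
  have a1 := (af hU).symm.trans (sx hU)
  have a2 := (af (hW o)).symm.trans (sx (hW o))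
  have a3 := (af hg).symm.trans (sx hg)
  have c0 := hc p hp
  have x1 := fun n => xw n 0
  have x2 := fun n => xw n 1
  have x3 := fun n => xw n 2
  have z0 : w 0 0 = 0 := by linarith
  have z1 : w 1 1 = 0 := by linarith
  have z2 : w 2 2 = 0 := by linarith
  have z3 : w 3 3 = 0 := by linarith
  have hpC : (p 0 : ℂ) * p 0 = p 1 * p 1 + p 2 * p 2 + p 3 * p 3 := by
    exact_mod_cast (by linarith : p 0 * p 0 = p 1 * p 1 + p 2 * p 2 + p 3 * p 3)
  have vo : (v o : ℂ) = -(p 1 * w 1 0 + p 2 * w 2 0 + p 3 * w 3 0) := by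
    simp [v, eta, o, Fin.sum_univ_four, z0, w01, w02, w03]; ring
  rw [vo] at tg
  simp only [l, r]
  simp only [Fin.succ_zero_eq_one, Fin.succ_one_eq_two, show (2 : Fin 3).succ = 3 from rfl] at x1 x2 x3
  simp [Fin.sum_univ_four, eta, bas, o, x1, x2, x3, z0, z1, z2, z3] at a1 a2 a3 c0 tg ⊢
  linear_combination -a2 - p 0 * a1 + (2 * π) ^ 3 * a3 + mdot p c * c0 - I * tg -
    ft (fun x => (X x 0 : ℂ) * U x) p * hpC + (ft (fun z => (mdot v z : ℝ) * W 0 z) p +
      p 0 * ft (fun z => (mdot v z : ℝ) * U z) p - (2 * π) ^ 3 * ft (fun z => (mdot v z : ℝ) * g z) p -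
      (p 1 * p 1 + p 2 * p 2 + p 3 * p 3) * ft (fun x => (X x 0 : ℂ) * U x) p +
      p 0 * (p 1 * ft (fun x => (X x 1 : ℂ) * U x) p + p 2 * ft (fun x => (X x 2 : ℂ) * U x) p +
        p 3 * ft (fun x => (X x 3 : ℂ) * U x) p) - (2 * π) ^ 3 *
      (p 1 * ft (fun x => (X x 1 : ℂ) * g x) p + p 2 * ft (fun x => (X x 2 : ℂ) * g x) p +
        p 3 * ft (fun x => (X x 3 : ℂ) * g x) p - p 0 * ft (fun x => (X x 0 : ℂ) * g x) p)) *
      Complex.I_mul_I

/-- **the Noether identity** -/
theorem noe : Br.NOE := by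
  intro F X hF hX ρ
  obtain ⟨a, c, ha, -, ha1, hc1, hF⟩ := hF
  obtain ⟨T, T0, hT⟩ := ha.exists_pos_le_norm
  obtain ⟨δ, δ0, hδ⟩ := Metric.eventually_nhds_iff.1 hc1
  have c0 : c 0 = 1 := hδ (by simpa using δ0)
  have sa : ContDiff ℝ ∞ fun x : V => (a (x o) : ℂ) := by
    have e : (fun x : V => (a (x o) : ℂ)) = fun x => F 1 fun n => if n = o then x o else 0 := by
      funext x
      rw [(hF 1 one_pos).2]
      have : (fun n : Ix => if n = o then (0 : ℝ) else (if n = o then x o else 0) / 1) = 0 := by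
        funext n; split_ifs <;> simp
      simp only [this, c0, if_true, Complex.ofReal_one, mul_one]
    rw [e]
    refine (test_smooth (hF 1 one_pos).1).comp (contDiff_pi.2 fun n => ?_)
    split_ifs
    · exact contDiff_apply ℝ ℝ o
    · exact contDiff_const
  have r0 := abs_nonneg ρ
  refine ⟨(T + 2 * |ρ| + 1) / δ, fun R hR g hg hs p hp => ?_⟩
  have R0 : 0 < R := lt_of_lt_of_le (by positivity) hR
  have hs' := hs.trans (Metric.closedBall_subset_closedBall (le_abs_self ρ))
  have z : ∀ {u : Fn}, (∀ x, |x o| + 2 * |ρ| < ‖x‖ → u x = 0) → ∀ x : V, T + 2 * |ρ| < ‖x‖ →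
      (a (x o) : ℂ) * u x = 0 := fun {u} hu x hx => by
    rcases le_or_gt T ‖x o‖ with h | h
    · simp [hT _ h]
    · rw [hu x (by rw [Real.norm_eq_abs] at h; linarith), mul_zero]
  have t : ∀ {u : Fn}, ContDiff ℝ ∞ u → (∀ x, |x o| + 2 * |ρ| < ‖x‖ → u x = 0) →
      IsTest fun x => (a (x o) : ℂ) * u x := fun {u} su hu =>
    test_of_compact (sa.mul su) (HasCompactSupport.intro (isCompact_closedBall 0 (T + 2 * |ρ|))
      fun x hx => z hu x (by simpa using hx))
  have hU := t (uu_smooth hg) fun x => uu_zero hg r0 hs'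
  have hW := fun m => t (wv_smooth hg m) fun x => wv_zero hg r0 hs' m
  have e : ∀ m x, F R x * wv g m x = a (x o) * wv g m x := fun m x => by
    rw [(hF R R0).2, mul_right_comm]
    rcases le_or_gt ‖x‖ (T + 2 * |ρ|) with h | h
    · rw [hδ, Complex.ofReal_one, mul_one]
      rw [dist_zero_right]
      refine lt_of_le_of_lt ((pi_norm_le_iff_of_nonneg (by positivity : 0 ≤ ‖x‖ / R)).2 fun n => ?_) ?_
      · split_ifs
        · simp; positivity
        · rw [norm_div, Real.norm_of_nonneg R0.le]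
          gcongr
          exact norm_le_pi_norm x n
      · rw [div_lt_iff₀ R0]
        rw [ge_iff_le, div_le_iff₀ δ0] at hR
        linarith
    · rw [z (fun x => wv_zero hg r0 hs' m) x h, zero_mul]
  rw [← core hg hU hW ?_ ?_ hX hp]
  · refine Finset.sum_congr rfl fun n _ => integral_congr_ae (ae_of_all _ fun x => ?_)
    simp only [Fin.sum_univ_four, ← e, ep]
    ring
  · intro i x
    have d1 : HasFDerivAt (fun x : V => (a (x o) : ℂ)) _ x :=
      (sa.differentiable (by simp) x).hasFDerivAt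
    have d0 : fderiv ℝ (fun x : V => (a (x o) : ℂ)) x (bas i.succ 1) = 0 := by
      rw [← d1.differentiableAt.lineDeriv_eq_fderiv, lineDeriv]
      simp [bas, o, (Fin.succ_ne_zero i).symm]
    have d := (d1.mul ((uu_smooth hg).differentiable (by simp) x).hasFDerivAt).fderiv
    refine Eq.symm ((congrArg (fun l => -I * l (bas i.succ 1)) d).trans ?_)
    simp only [ContinuousLinearMap.add_apply, ContinuousLinearMap.smul_apply, d0, uu_fd hg,
      smul_eq_mul]
    simp only [eta, o, Fin.succ_ne_zero, if_false]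
    push_cast
    linear_combination (-(a (x 0) : ℂ) * wv g i.succ x) * Complex.I_mul_I
  · intro q hq
    have hs : Fk.Hs (ft g) := ⟨meas_ft hg, fun N => by
      obtain ⟨C, C0, h⟩ := ft_dec hg N
      refine ⟨C * 2 ^ N, fun k => ?_⟩
      calc _ ≤ C * ((1 + ‖k‖) ^ N)⁻¹ * (2 * (1 + ‖k‖)) ^ N :=
            mul_le_mul (h k) (pow_le_pow_left₀ (by unfold Fk.rr; positivity)
              (by unfold Fk.rr; linarith [norm_nonneg k]) N) (by unfold Fk.rr; positivity)
              (by positivity)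
        _ = _ := by rw [mul_pow]; field_simp⟩
    have e2 : (fun x => (a (x o) : ℂ) * ep q x * (q o * uu g x + wv g o x)) = fun x =>
        (a (x o) * wv g o x + q o * (a (x o) * uu g x)) * exp (I * mdot q x) := by
      funext x; simp only [ep]; ring
    have tt := test_add (hW o) (test_cmul (q o) hU)
    rw [← ft_mul, ← ft_add (hW o) (test_cmul _ hU), ← Br.cauchy hg hs ha1 hq
      (e2 ▸ int_ex (test_int tt) q), e2]
    rfl

end

end Vale.Agent.P352W.Ch.Nc
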