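import Vale.Agent.P352W.Ch.Cau
import Vale.Agent.P352W.Ch.Defs
import Vale.Agent.P352W.Fk.Def
import Vale.Agent.P352.H15.NPDefs

/-! # P352W: the Noether identity in kernel form -/

set_option autoImplicit false
set_option linter.all false

open MeasureTheory Real
open Complex (I norm_real)

namespace Vale.Agent.P352W.Ch.Br

open Vale.Agent.P352.GF Vale.Agent.P352W.Cn Vale.Agent.P352W.Fk
open Vale.Agent.P352.H15 (IsSim)

theorem t_int {g : Fn} (hg : IsTest g) : Integrable g := by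
  obtain ⟨g, rfl⟩ := hg; exact g.integrable

theorem c_ft {g : Fn} (hg : Integrable g) : Continuous (ft g) :=
  continuous_of_dominated (bound := fun x => ‖g x‖)
    (fun p => hg.1.mul (c_e.comp (continuous_const.prodMk continuous_id)).aestronglyMeasurable)
    (fun p => .of_forall fun x => by rw [norm_mul, nrm, mul_one]) hg.norm
    (.of_forall fun x => continuous_const.mul (c_e.comp (continuous_id.prodMk continuous_const)))

theorem int_hs {h b : V → ℂ} (hh : Hs h) (hb : Measurable b) (hb' : ∀ q, ‖b q‖ ≤ 1 + ‖q‖)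
    {σ : V → V} (hσ : Measurable σ) (hn : ∀ q, ‖σ q‖ = ‖q‖) :
    Integrable (fun q => b q * h (σ q)) Om := by
  obtain ⟨c, hc⟩ := hh.2 4
  refine integrable_om_of_le (N := 3) (C := c) le_rfl
    (hb.mul (hh.1.comp hσ)).aestronglyMeasurable fun q => ?_
  have h0 := norm_nonneg q
  have h1 := hc (σ q)
  rw [rr, hn] at h1
  rw [norm_mul, ← div_eq_mul_inv, le_div_iff₀ (by positivity)]
  calc ‖b q‖ * ‖h (σ q)‖ * (1 + ‖q‖) ^ 3 ≤ (2 + ‖q‖) * ‖h (σ q)‖ * (2 + ‖q‖) ^ 3 := by
        gcongr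
        · linarith [hb' q]
        · norm_num
    _ = ‖h (σ q)‖ * (2 + ‖q‖) ^ 4 := by ring
    _ ≤ c := h1

theorem i1 {h : V → ℂ} (hh : Hs h) : Integrable h Om := by
  simpa using int_hs hh (b := fun _ => 1) measurable_const (fun q => by simp) measurable_id
    fun _ => rfl

theorem i2 {h : V → ℂ} (hh : Hs h) : Integrable (fun q => h (-q)) Om := by
  simpa using int_hs hh (b := fun _ => 1) measurable_const (fun q => by simp) measurable_neg
    norm_neg

theorem co_le (m : Ix) (q : V) : ‖(q m : ℂ)‖ ≤ 1 + ‖q‖ := by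
  rw [norm_real]; linarith [norm_le_pi_norm q m]

theorem i3 {h : V → ℂ} (hh : Hs h) (m : Ix) : Integrable (fun q => (q m : ℂ) * h q) Om :=
  int_hs hh (by fun_prop) (co_le m) measurable_id fun _ => rfl

theorem i4 {h : V → ℂ} (hh : Hs h) (m : Ix) : Integrable (fun q => (q m : ℂ) * h (-q)) Om :=
  int_hs hh (by fun_prop) (co_le m) measurable_neg norm_neg

/-- **the Cauchy identity** for `uu`, `wv` -/
theorem cauchy {g : Fn} (hg : IsTest g) (hs : Hs (ft g)) {a : ℝ → ℝ} (ha : ∫ t, a t = 1) {p : V}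
    (hp : mdot p p = 0)
    (hi : Integrable fun x => (a (x o) : ℂ) * ep p x * (p o * uu g x + wv g o x)) :
    ∫ x, (a (x o) : ℂ) * ep p x * (p o * uu g x + wv g o x) = (2 * π) ^ 3 * ft g p :=
  cau (c_ft (t_int hg)) (i1 hs) (i2 hs) (i3 hs o) (i4 hs o) ha hp (fun _ => rfl) (fun _ => rfl) hi

/-- **the bridge** for `wv` -/
theorem br_wv {G g : Fn} (hG : Integrable G) (hs : Hs (ft g)) (m : Ix) (p : V) :
    Integrable (fun x => G x * ep p x * wv g m x) ∧
    Integrable (fun q => (q m : ℂ) * (ft g q * ft G (p - q) + ft g (-q) * ft G (p + q))) Om ∧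
    ∫ x, G x * ep p x * wv g m x =
      ∫ q, (q m : ℂ) * (ft g q * ft G (p - q) + ft g (-q) * ft G (p + q)) ∂Om := by
  have := br hG (i3 hs m) (i4 hs m) p
  simp only [wv, ep, mul_add (_ : ℂ) (ft g _ * _), ← mul_assoc]
  exact this

/-- the bridge for the tensor -/
theorem br_tk {G g : Fn} (hG : Integrable G) (hs : Hs (ft g)) (m n : Ix) (p : V) :
    ∫ x, G x * ep p x * (p m * wv g n x + p n * wv g m x -
      bas m (eta m) n * ∑ k, eta k * p k * wv g k x) =
      ∫ q, (tk m n p q : ℂ) * (ft g q * ft G (p - q) + ft g (-q) * ft G (p + q)) ∂Om := by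
  have b := fun k => br_wv hG hs k p
  have e1 : ∀ x, G x * ep p x * (p m * wv g n x + p n * wv g m x -
      bas m (eta m) n * ∑ k, eta k * p k * wv g k x) = p m * (G x * ep p x * wv g n x) +
      p n * (G x * ep p x * wv g m x) -
      ∑ k, bas m (eta m) n * eta k * p k * (G x * ep p x * wv g k x) := fun x => by
    simp only [Fin.sum_univ_four]; ring
  have e2 : ∀ (q : V) (y : ℂ), (tk m n p q : ℂ) * y = p m * (q n * y) + p n * (q m * y) -
      ∑ k, bas m (eta m) n * eta k * p k * (q k * y) := fun q y => by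
    simp only [tk, mdot, Fin.sum_univ_four]; push_cast; ring
  simp only [e1, e2]
  have gen : ∀ (μ : Measure V) (Y : Ix → V → ℂ), (∀ k, Integrable (Y k) μ) → ∀ (a c : ℂ)
      (d : Ix → ℂ), ∫ x, (a * Y n x + c * Y m x - ∑ k, d k * Y k x) ∂μ =
        a * ∫ x, Y n x ∂μ + c * ∫ x, Y m x ∂μ - ∑ k, d k * ∫ x, Y k x ∂μ := fun μ Y h a c d => by
    have h1 : Integrable (fun x => a * Y n x + c * Y m x) μ :=
      ((h n).const_mul _).add ((h m).const_mul _)
    rw [integral_sub h1 (integrable_finset_sum _ fun k _ => (h k).const_mul _),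
      integral_add ((h n).const_mul _) ((h m).const_mul _),
      integral_finset_sum _ fun k _ => (h k).const_mul _]
    simp only [integral_const_mul]
  rw [gen _ _ fun k => (b k).1, gen _ _ fun k => (b k).2.1]
  simp only [fun k => (b k).2.2]

/-- the symbol of the commutator of a quadratic field with a linear field -/
noncomputable def cm (κ : V → V → ℂ) (h : V → ℂ) (p : V) : ℂ :=
  ∫ q, ((κ p (-q) + κ (-q) p) * h q - (κ p q + κ q p) * h (-q)) ∂Om

theorem tk_symm (m n : Ix) (p q : V) : tk m n q p = tk m n p q := by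
  simp only [tk, mdot, Fin.sum_univ_four]; ring

theorem tk_neg (m n : Ix) (p q : V) : tk m n p (-q) = -tk m n p q := by
  simp only [tk, mdot, Fin.sum_univ_four, Pi.neg_apply]; ring

theorem cm_kT {G g : Fn} (hG : Integrable G) (hs : Hs (ft g)) (m n : Ix) (p : V) :
    cm (kT m n G) (ft g) p = ((2 * π) ^ 3 : ℂ)⁻¹ * ∫ x, G x * ep p x * (p m * wv g n x +
      p n * wv g m x - bas m (eta m) n * ∑ k, eta k * p k * wv g k x) := by
  rw [br_tk hG hs, ← integral_const_mul]
  refine integral_congr_ae (.of_forall fun q => ?_)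
  have hπ : (π : ℂ) ≠ 0 := by exact_mod_cast pi_ne_zero
  simp only [kT, tk_symm m n p, tk_neg, add_comm (-q) p, add_comm q p, ← sub_eq_add_neg]
  push_cast
  field_simp
  ring

/-- the head of the Noether block -/
def NOE : Prop := ∀ (F : ℝ → Fn) (X : V → V), IsCutoff F → IsSim 0 X → ∀ ρ : ℝ, ∃ R₀ : ℝ,
  ∀ R ≥ R₀, ∀ g, IsTest g → tsupport g ⊆ Metric.closedBall 0 ρ → ∀ p, mdot p p = 0 →
    ∑ n, ∫ x, ((eta n : ℂ) * X x n * F R x) * ep p x * (p o * wv g n x + p n * wv g o x -
      bas o (eta o) n * ∑ k, eta k * p k * wv g k x) =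
      I * (2 * π) ^ 3 * ft (fun x => ∑ n, X x n * pd n g x) p

/-- **the Noether identity in kernel form** -/
theorem ker (noe : NOE) {F : ℝ → Fn} {X : V → V} (hF : IsCutoff F) (hX : IsSim 0 X) (ρ : ℝ) :
    ∃ R₀ : ℝ, ∀ R ≥ R₀, ∀ g, IsTest g → Hs (ft g) → tsupport g ⊆ Metric.closedBall 0 ρ →
      (∀ n, IsTest fun x => (eta n : ℂ) * X x n * F R x) → ∀ p, mdot p p = 0 →
      ∑ n, cm (kT o n fun x => (eta n : ℂ) * X x n * F R x) (ft g) p =
        I * ft (fun x => ∑ n, X x n * pd n g x) p := by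
  obtain ⟨R₀, h⟩ := noe F X hF hX ρ
  refine ⟨R₀, fun R hR g hg hs hb hG p hp => ?_⟩
  have hπ : (π : ℂ) ≠ 0 := by exact_mod_cast pi_ne_zero
  simp only [fun n => cm_kT (t_int (hG n)) hs o n p]
  rw [← Finset.mul_sum, h R hR g hg hb p hp]
  field_simp

end Vale.Agent.P352W.Ch.Br
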