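import Mathlib.Analysis.Fourier.Inversion
import Mathlib.MeasureTheory.Constructions.Pi
import Mathlib.MeasureTheory.Integral.Prod

/-! # P352W: Fourier inversion on `Fin n → ℝ` and slicing of integrals -/

set_option autoImplicit false
set_option linter.all false

open MeasureTheory Complex Real
open scoped FourierTransform RealInnerProductSpace

namespace Vale.Agent.P352W.Ch.I3

/-- Fourier inversion at a point of continuity -/
theorem inv {n : ℕ} {g h : (Fin n → ℝ) → ℂ} (hg : Integrable g) (hi : Integrable h)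
    (hh : ∀ x, h x = ∫ k, cexp (I * (∑ i, k i * x i : ℝ)) * g k) {p : Fin n → ℝ}
    (hc : ContinuousAt g p) :
    ∫ x, cexp (-(I * (∑ i, p i * x i : ℝ))) * h x = (2 * π) ^ n * g p := by
  let E := EuclideanSpace ℝ (Fin n)
  have hin : ∀ a b : E, ⟪a, b⟫ = ∑ i, a.ofLp i * b.ofLp i := fun a b => by
    rw [show ⟪a, b⟫ = ∑ i, ⟪a.ofLp i, b.ofLp i⟫ from PiLp.inner_apply a b]
    exact Finset.sum_congr rfl fun i _ => by simp [mul_comm]
  have hπ : (0 : ℝ) < 2 * π := by positivity
  have m1 := PiLp.volume_preserving_toLp (Fin n)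
  have e1 : MeasurableEmbedding (WithLp.toLp 2 : (Fin n → ℝ) → E) :=
    (MeasurableEquiv.toLp 2 _).measurableEmbedding
  let f : E → ℂ := fun v => g ((-(2 * π)) • v.ofLp)
  have hf : Integrable f := by
    rw [← m1.integrable_comp_emb e1]
    exact (integrable_comp_smul_iff volume g (by linarith : -(2 * π) ≠ 0)).2 hg
  have hF : ∀ w : E, 𝓕 f w = (((2 * π) ^ n)⁻¹ : ℝ) * h w.ofLp := by
    intro w
    rw [Real.fourier_eq', ← m1.integral_comp e1, hh]
    have := Measure.integral_comp_smul volume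
      (fun k : Fin n → ℝ => cexp (I * (∑ i, k i * w.ofLp i : ℝ)) * g k) (-(2 * π))
    rw [Module.finrank_fin_fun, abs_inv, abs_pow, abs_neg, abs_of_pos hπ, Complex.real_smul] at this
    rw [← this]
    refine integral_congr_ae (.of_forall fun k => ?_)
    simp only [f, smul_eq_mul]
    congr 2
    rw [mul_comm _ I]
    congr 2
    simp only [hin, Pi.smul_apply, smul_eq_mul, Finset.mul_sum]
    exact Finset.sum_congr rfl fun i _ => by ring
  have hF' : Integrable (𝓕 f) := by
    rw [funext hF, ← m1.integrable_comp_emb e1]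
    exact hi.const_mul _
  have hp : (-(2 * π)) • (-(2 * π))⁻¹ • p = p := by
    rw [smul_smul, mul_inv_cancel₀ (by linarith), one_smul]
  have hv : ContinuousAt f (WithLp.toLp 2 ((-(2 * π))⁻¹ • p)) := by
    refine ContinuousAt.comp (f := fun v : E => (-(2 * π)) • v.ofLp) (g := g) ?_ ?_
    · simpa only [hp] using hc
    · fun_prop
  have key := hf.fourierInv_fourier_eq hF' hv
  rw [Real.fourierInv_eq', ← m1.integral_comp e1] at key
  simp only [f, hp, hF, smul_eq_mul] at key
  rw [← key, ← integral_const_mul]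
  refine integral_congr_ae (.of_forall fun x => ?_)
  have c1 : ((2 * π : ℝ) : ℂ) ^ n ≠ 0 := pow_ne_zero _ (by exact_mod_cast hπ.ne')
  have c2 : cexp (↑(2 * π * ⟪(WithLp.toLp 2 x : E), WithLp.toLp 2 ((-(2 * π))⁻¹ • p)⟫) * I) =
      cexp (-(I * (∑ i, p i * x i : ℝ))) := by
    congr 1
    rw [mul_comm _ I, ← mul_neg I, ← Complex.ofReal_neg]
    congr 2
    simp only [hin, Pi.smul_apply, smul_eq_mul, Finset.mul_sum, ← Finset.sum_neg_distrib]
    exact Finset.sum_congr rfl fun i _ => by field_simp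
  simp only [c2]
  push_cast at c1 ⊢
  field_simp

/-- slicing -/
theorem slice {n : ℕ} {F : (Fin (n + 1) → ℝ) → ℂ} (hF : Integrable F) :
    (∀ᵐ t : ℝ, Integrable fun y : Fin n → ℝ => F (Fin.cons t y)) ∧
    (Integrable fun t : ℝ => ∫ y : Fin n → ℝ, F (Fin.cons t y)) ∧
    ∫ x, F x = ∫ t : ℝ, ∫ y : Fin n → ℝ, F (Fin.cons t y) := by
  have m := (volume_preserving_piFinSuccAbove (fun _ : Fin (n + 1) => ℝ) 0).symm
  have e : ∀ z : ℝ × (Fin n → ℝ),
      (MeasurableEquiv.piFinSuccAbove (fun _ : Fin (n + 1) => ℝ) 0).symm z = Fin.cons z.1 z.2 := by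
    intro z
    simp [MeasurableEquiv.piFinSuccAbove, Fin.consEquiv]
  have hi : Integrable (fun z : ℝ × (Fin n → ℝ) => F (Fin.cons z.1 z.2)) (volume.prod volume) := by
    have := (m.integrable_comp_emb (MeasurableEquiv.measurableEmbedding _)).2 hF
    simp only [Function.comp_def, e] at this
    exact this
  refine ⟨hi.prod_right_ae, hi.integral_prod_left, ?_⟩
  rw [← m.integral_comp', ← integral_prod _ hi]
  simp only [e]
  rfl

end Vale.Agent.P352W.Ch.I3
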