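import Vale.Agent.P352W.Cn.Defs
import Vale.Agent.P352W.Ch.I3

/-! # P352W: the bridge between kernels and position space, and the Cauchy identity -/

set_option autoImplicit false
set_option linter.all false

open MeasureTheory Complex Real

namespace Vale.Agent.P352W.Ch.Br

open Vale.Agent.P352.GF Vale.Agent.P352W.Cn

theorem nrm (r : ℝ) : ‖cexp (I * r)‖ = 1 := by rw [mul_comm]; exact norm_exp_ofReal_mul_I r

theorem md_neg (q x : V) : mdot (-q) x = -mdot q x := by simp [mdot]

theorem md_add (p q x : V) : mdot (p + q) x = mdot p x + mdot q x := by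
  simp [mdot, mul_add, add_mul, Finset.sum_add_distrib]

theorem c_e : Continuous fun z : V × V => cexp (I * mdot z.1 z.2) := by
  have := continuous_mdot; fun_prop

theorem int_e {μ : Measure V} {α : V → ℂ} (hα : Integrable α μ) (x : V) :
    Integrable (fun q => α q * cexp (I * mdot q x)) μ :=
  hα.mul_bdd (c := 1) (c_e.comp (continuous_id.prodMk continuous_const)).aestronglyMeasurable
    (.of_forall fun q => (nrm _).le)

theorem int_e' {μ : Measure V} {α : V → ℂ} (hα : Integrable α μ) (x : V) :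
    Integrable (fun q => α q * cexp (I * mdot (-q) x)) μ :=
  hα.mul_bdd (c := 1) (c_e.comp (continuous_neg.prodMk continuous_const)).aestronglyMeasurable
    (.of_forall fun q => (nrm _).le)

/-- one Fubini -/
theorem br1 {μ : Measure V} [SFinite μ] {G : Fn} (hG : Integrable G) {α : V → ℂ}
    (hα : Integrable α μ) {σ : V → V} (hσ : Continuous σ) (p : V) :
    Integrable (fun x => G x * cexp (I * mdot p x) * ∫ q, α q * cexp (I * mdot (σ q) x) ∂μ) ∧
    Integrable (fun q => α q * ft G (p + σ q)) μ ∧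
    ∫ x, G x * cexp (I * mdot p x) * ∫ q, α q * cexp (I * mdot (σ q) x) ∂μ =
      ∫ q, α q * ft G (p + σ q) ∂μ := by
  have hi : Integrable (fun z : V × V => G z.1 * α z.2 * cexp (I * mdot (p + σ z.2) z.1))
      (volume.prod μ) :=
    (hG.mul_prod hα).mul_bdd (c := 1) (c_e.comp (f := fun z : V × V => (p + σ z.2, z.1))
      (by fun_prop)).aestronglyMeasurable (.of_forall fun q => (nrm _).le)
  have e1 : ∀ x, G x * cexp (I * mdot p x) * ∫ q, α q * cexp (I * mdot (σ q) x) ∂μ =
      ∫ q, G x * α q * cexp (I * mdot (p + σ q) x) ∂μ := fun x => by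
    rw [← integral_const_mul]
    refine integral_congr_ae (.of_forall fun q => ?_)
    simp only [md_add, ofReal_add, mul_add, Complex.exp_add]; ring
  have e2 : ∀ q, α q * ft G (p + σ q) = ∫ x, G x * α q * cexp (I * mdot (p + σ q) x) := fun q => by
    rw [ft, ← integral_const_mul]
    exact integral_congr_ae (.of_forall fun x => by simp only; ring)
  simp only [e1, e2]
  exact ⟨hi.integral_prod_left, hi.integral_prod_right, integral_integral_swap hi⟩

/-- **the bridge** -/
theorem br {μ : Measure V} [SFinite μ] {G : Fn} (hG : Integrable G) {α β : V → ℂ}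
    (hα : Integrable α μ) (hβ : Integrable β μ) (p : V) :
    Integrable (fun x => G x * cexp (I * mdot p x) *
      ∫ q, (α q * cexp (I * mdot (-q) x) + β q * cexp (I * mdot q x)) ∂μ) ∧
    Integrable (fun q => α q * ft G (p - q) + β q * ft G (p + q)) μ ∧
    ∫ x, G x * cexp (I * mdot p x) *
      ∫ q, (α q * cexp (I * mdot (-q) x) + β q * cexp (I * mdot q x)) ∂μ =
      ∫ q, (α q * ft G (p - q) + β q * ft G (p + q)) ∂μ := by
  obtain ⟨a1, a2, a3⟩ := br1 hG hα continuous_neg p
  obtain ⟨b1, b2, b3⟩ := br1 hG hβ continuous_id p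
  simp only [id, ← sub_eq_add_neg] at a2 a3 b1 b2 b3
  simp only [integral_add (int_e' hα _) (int_e hβ _), mul_add]
  exact ⟨a1.add b1, a2.add b2, by rw [integral_add a1 b1, integral_add a2 b2, a3, b3]⟩

theorem md_cn (k : E3) (t : ℝ) (y : Fin 3 → ℝ) :
    mdot (cn k) (Fin.cons t y) = ‖k‖ * t - ∑ i, k i * y i := by
  rw [mdot_eq]; rfl

theorem wts {p : V} (hp : mdot p p = 0) (φ : V → ℂ) : ∃ c d : E3 → ℂ,
    (∀ k ≠ 0, c k = ((2 * ‖k‖)⁻¹ : ℝ) * (p o + ‖k‖)) ∧
    (∀ k ≠ 0, d k = ((2 * ‖k‖)⁻¹ : ℝ) * (‖k‖ - p o)) ∧ ContinuousAt c (sp p) ∧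
    ContinuousAt d (sp p) ∧ ∀ t : ℝ, cexp (I * (p o * t : ℝ)) *
      (c (sp p) * φ (cn (sp p)) * cexp (-(I * (‖sp p‖ * t : ℝ))) +
        d (sp p) * φ (-cn (-sp p)) * cexp (I * (‖sp p‖ * t : ℝ))) = φ p := by
  have hn : ∀ k : E3, k ≠ 0 → ((‖k‖ : ℝ) : ℂ) ≠ 0 := fun k hk => by
    exact_mod_cast norm_ne_zero_iff.2 hk
  have ct : ∀ (k : E3) (F : E3 → ℂ), ‖k‖ ≠ 0 → Continuous F →
      ContinuousAt (fun k : E3 => (((2 * ‖k‖)⁻¹ : ℝ) : ℂ) * F k) k := fun k F h hF =>
    (continuous_ofReal.continuousAt.comp (ContinuousAt.inv₀ (by fun_prop) (by simpa using h))).mul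
      hF.continuousAt
  rcases lt_trichotomy (p o) 0 with h | h | h
  · have h1 : cn (sp (-p)) = -p := cn_sp (by simpa using h.le) (by simpa [mdot] using hp)
    have h2 : sp (-p) = -sp p := rfl
    have h3 : ‖sp p‖ = -p o := by
      have := congrFun h1 o
      rwa [cn_o, h2, norm_neg] at this
    refine ⟨_, _, fun _ _ => rfl, fun _ _ => rfl, ct _ _ (by rw [h3]; linarith) (by fun_prop),
      ct _ _ (by rw [h3]; linarith) (by fun_prop), fun t => ?_⟩
    have h4 : ((p o : ℝ) : ℂ) ≠ 0 := by exact_mod_cast h.ne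
    rw [← h2, h1, neg_neg, h3]
    push_cast
    rw [add_neg_cancel, mul_zero, zero_mul, zero_mul, zero_add, neg_mul, mul_neg I,
      Complex.exp_neg]
    field_simp
    ring
  · have h1 : cn (sp p) = p := cn_sp h.ge hp
    have h3 : ‖sp p‖ = 0 := by rw [← h]; exact congrFun h1 o
    have h5 : sp p = 0 := norm_eq_zero.1 h3
    refine ⟨fun _ => 2⁻¹, fun _ => 2⁻¹, fun k hk => ?_, fun k hk => ?_, continuousAt_const,
      continuousAt_const, fun t => ?_⟩
    · have := hn k hk
      rw [h]; push_cast; field_simp; simp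
    · have := hn k hk
      rw [h]; push_cast; field_simp; simp
    · have h6 : p = 0 := by
        rw [← h1, h5]; funext m; refine Fin.cases ?_ (fun i => ?_) m <;> simp [cn]
      have h7 : -cn (-sp p) = p := by rw [h5, neg_zero, ← h5, h1, h6, neg_zero]
      rw [h7, h1, h3, h]; simp; ring
  · have h1 : cn (sp p) = p := cn_sp h.le hp
    have h3 : ‖sp p‖ = p o := congrFun h1 o
    refine ⟨_, _, fun _ _ => rfl, fun _ _ => rfl, ct _ _ (by rw [h3]; linarith) (by fun_prop),
      ct _ _ (by rw [h3]; linarith) (by fun_prop), fun t => ?_⟩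
    have h4 : ((p o : ℝ) : ℂ) ≠ 0 := by exact_mod_cast h.ne'
    rw [h1, h3]
    push_cast
    rw [sub_self, mul_zero, zero_mul, zero_mul, add_zero, Complex.exp_neg]
    field_simp
    ring

/-- **the Cauchy identity** -/
theorem cau {φ : V → ℂ} (hφ : Continuous φ) (h1 : Integrable φ Om)
    (h2 : Integrable (fun q => φ (-q)) Om) (h3 : Integrable (fun q => (q o : ℂ) * φ q) Om)
    (h4 : Integrable (fun q => (q o : ℂ) * φ (-q)) Om) {a : ℝ → ℝ} (ha : ∫ t, a t = 1) {p : V}
    (hp : mdot p p = 0) {u w : Fn}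
    (hu : ∀ x, u x = ∫ q, (φ q * cexp (I * mdot (-q) x) - φ (-q) * cexp (I * mdot q x)) ∂Om)
    (hw : ∀ x, w x = ∫ q, (q o : ℂ) *
      (φ q * cexp (I * mdot (-q) x) + φ (-q) * cexp (I * mdot q x)) ∂Om)
    (hi : Integrable fun x => (a (x o) : ℂ) * cexp (I * mdot p x) * (p o * u x + w x)) :
    ∫ x, (a (x o) : ℂ) * cexp (I * mdot p x) * (p o * u x + w x) = (2 * π) ^ 3 * φ p := by
  obtain ⟨c, d, hc, hd, cc, cd, hv⟩ := wts hp φ
  have m1 := PiLp.volume_preserving_toLp (Fin 3)
  have e1 : MeasurableEmbedding (WithLp.toLp 2 : (Fin 3 → ℝ) → E3) :=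
    (MeasurableEquiv.toLp 2 _).measurableEmbedding
  have i1 : Integrable (fun q => ((p o : ℂ) + q o) * φ q) Om := by
    simp only [add_mul]; exact (h1.const_mul (p o : ℂ)).add h3
  have i2 : Integrable (fun q => ((q o : ℂ) - p o) * φ (-q)) Om := by
    simp only [sub_mul]; exact h4.sub (h2.const_mul (p o : ℂ))
  have j1 : Integrable fun k : E3 => c k * φ (cn k) := by
    refine ((integrable_om _).1 i1).congr ?_
    filter_upwards [ae_ne_zero] with k hk
    rw [hc k hk, real_smul, cn_o, mul_assoc]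
  have j2 : Integrable fun k : E3 => d k * φ (-cn (-k)) := by
    refine ((integrable_om _).1 i2).comp_neg.congr ?_
    filter_upwards [ae_ne_zero] with k hk
    rw [hd k hk, real_smul, cn_o, norm_neg, mul_assoc]
  let γ : ℝ → E3 → ℂ := fun t k => c k * φ (cn k) * cexp (-(I * (‖k‖ * t : ℝ))) +
    d k * φ (-cn (-k)) * cexp (I * (‖k‖ * t : ℝ))
  have b1 : ∀ t : ℝ, Integrable fun k : E3 => c k * φ (cn k) * cexp (-(I * (‖k‖ * t : ℝ))) :=
    fun t => j1.mul_bdd (c := 1) (by fun_prop) (.of_forall fun k => by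
      rw [← mul_neg, ← ofReal_neg]; exact (nrm _).le)
  have b2 : ∀ t : ℝ, Integrable fun k : E3 => d k * φ (-cn (-k)) * cexp (I * (‖k‖ * t : ℝ)) :=
    fun t => j2.mul_bdd (c := 1) (by fun_prop) (.of_forall fun k => (nrm _).le)
  have hY : ∀ (t : ℝ) (y : Fin 3 → ℝ), p o * u (Fin.cons t y) + w (Fin.cons t y) =
      ∫ k : Fin 3 → ℝ, cexp (I * (∑ i, k i * y i : ℝ)) * γ t (WithLp.toLp 2 k) := by
    intro t y
    have s1 : p o * u (Fin.cons t y) + w (Fin.cons t y) =
        (∫ q, ((p o : ℂ) + q o) * φ q * cexp (I * mdot (-q) (Fin.cons t y)) ∂Om) +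
        ∫ q, ((q o : ℂ) - p o) * φ (-q) * cexp (I * mdot q (Fin.cons t y)) ∂Om := by
      rw [hu, hw, ← integral_const_mul, ← integral_add, ← integral_add (int_e' i1 _) (int_e i2 _)]
      · exact integral_congr_ae (.of_forall fun q => by simp only; ring)
      · exact ((int_e' h1 _).sub (int_e h2 _)).const_mul _
      · simp only [mul_add, ← mul_assoc]; exact (int_e' h3 _).add (int_e h4 _)
    have s2 : ∀ k : E3, Continuous fun k : E3 => cexp (I * (∑ i, k i * y i : ℝ)) := fun _ => by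
      fun_prop
    rw [s1, integral_om, integral_om, ← integral_neg_eq_self (fun k : E3 => (((2 * ‖k‖)⁻¹ : ℝ) : ℂ) *
      ((((cn k o : ℝ) : ℂ) - p o) * φ (-cn k) * cexp (I * mdot (cn k) (Fin.cons t y))))]
    rw [m1.integral_comp e1 (fun k : E3 => cexp (I * (∑ i, k i * y i : ℝ)) * γ t k)]
    simp only [γ, mul_add]
    rw [integral_add ((b1 t).bdd_mul (c := 1) (s2 0).aestronglyMeasurable
      (.of_forall fun k => (nrm _).le)) ((b2 t).bdd_mul (c := 1) (s2 0).aestronglyMeasurable
      (.of_forall fun k => (nrm _).le))]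
    congr 1
    · refine integral_congr_ae ?_
      filter_upwards [ae_ne_zero] with k hk
      rw [hc k hk, md_neg, md_cn, cn_o, neg_sub, ofReal_sub, mul_sub, sub_eq_add_neg,
        Complex.exp_add]
      ring
    · refine integral_congr_ae ?_
      filter_upwards [ae_ne_zero] with k hk
      rw [hd k hk, md_cn, cn_o, norm_neg]
      simp only [PiLp.neg_apply, neg_mul, Finset.sum_neg_distrib, sub_neg_eq_add, ofReal_add,
        mul_add, Complex.exp_add]
      ring
  obtain ⟨k1, -, k3⟩ := I3.slice hi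
  have hm : ∀ (t : ℝ) (y : Fin 3 → ℝ), cexp (I * mdot p (Fin.cons t y)) =
      cexp (I * (p o * t : ℝ)) * cexp (-(I * (∑ i, (sp p).ofLp i * y i : ℝ))) := fun t y => by
    rw [← Complex.exp_add, mdot_eq, ofReal_sub, mul_sub, sub_eq_add_neg]; rfl
  have ho : ∀ (t : ℝ) (y : Fin 3 → ℝ), (Fin.cons t y : V) o = t := fun _ _ => rfl
  rw [k3, ← one_mul ((2 * π : ℂ) ^ 3 * φ p), ← ofReal_one, ← ha, ← integral_complex_ofReal,
    ← integral_mul_const]
  refine integral_congr_ae ?_
  filter_upwards [k1] with t ht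
  simp only [ho] at ht ⊢
  by_cases h0 : a t = 0
  · simp [h0]
  have hi' : Integrable fun y : Fin 3 → ℝ => p o * u (Fin.cons t y) + w (Fin.cons t y) := by
    have := (ht.const_mul (a t : ℂ)⁻¹).bdd_mul (c := 1)
      (f := fun y : Fin 3 → ℝ => cexp (I * mdot (-p) (Fin.cons t y)))
      (c_e.comp (f := fun y : Fin 3 → ℝ => ((-p, Fin.cons t y) : V × V))
        (by fun_prop)).aestronglyMeasurable (.of_forall fun y => (nrm _).le)
    refine this.congr (.of_forall fun y => ?_)
    have h5 : ((a t : ℝ) : ℂ) ≠ 0 := by exact_mod_cast h0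
    simp only [md_neg, ofReal_neg, mul_neg, Complex.exp_neg]
    field_simp
  have key := I3.inv (g := fun k => γ t (WithLp.toLp 2 k)) (p := (sp p).ofLp)
    ((m1.integrable_comp_emb e1).2 ((b1 t).add (b2 t))) hi' (hY t) (by
      refine ContinuousAt.comp (g := γ t) (f := fun k : Fin 3 → ℝ => (WithLp.toLp 2 k : E3)) ?_
        (by fun_prop)
      have := continuous_cn
      exact ((cc.mul (by fun_prop)).mul (by fun_prop)).add ((cd.mul (by fun_prop)).mul (by fun_prop)))
  simp only [hm, mul_assoc]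
  rw [integral_const_mul, integral_const_mul, key, ← hv t]
  simp only [γ, coe_algebraMap]
  ring

end Vale.Agent.P352W.Ch.Br
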