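import Vale.Agent.P352W.Ch.Br
import Vale.Agent.P352W.Cn.Pj
import Vale.Agent.P352W.Fk.Cont
import Mathlib.Analysis.Calculus.LineDeriv.IntegrationByParts

/-! # P352W, the classical Noether identity (helper89) -/

set_option autoImplicit false
set_option linter.all false

open MeasureTheory Filter Topology Real
open Complex (I)

noncomputable section

namespace Vale.Agent.P352W.Ch.Nb

open Vale.Agent.P352.GF Vale.Agent.P352W.Cn Vale.Agent.P352W.Fk Vale.Agent.P352W.Ft
open Vale.Agent.P352.H15 (IsSim)

/-- the product as a complex valued form -/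
def La : V →L[ℝ] V →L[ℝ] ℂ := (ContinuousLinearMap.compL ℝ V ℝ ℂ Complex.ofRealCLM) ∘L mdL

theorem La_ap (z y : V) : La z y = mdot z y := rfl

theorem ep_comm (p x : V) : ep p x = ep x p := by unfold ep; rw [md_comm]

theorem ep_fd (z y : V) : HasFDerivAt (ep z) ((ep z y * I) • La z) y := by
  have := ((La z).hasFDerivAt (x := y)).const_mul I |>.cexp
  rw [smul_smul] at this
  exact this

/-- transforms -/
def FT (μ : Measure V) (α : V → ℂ) (y : V) : ℂ := ∫ z, α z * ep z y ∂μ

variable {μ : Measure V} {α : V → ℂ}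

theorem int_ep (h : Integrable α μ) (y : V) : Integrable (fun z => α z * ep z y) μ :=
  h.mul_bdd (c := 1) (cont_ep2 y).aestronglyMeasurable (.of_forall fun z => (norm_ep z y).le)

theorem cont_FT (h : Integrable α μ) : Continuous (FT μ α) :=
  continuous_of_dominated (bound := fun x => ‖α x‖) (fun p => (int_ep h p).1)
    (fun p => .of_forall fun x => by rw [norm_mul, norm_ep, mul_one]) h.norm
    (.of_forall fun x => continuous_const.mul (cont_ep1 x))

theorem FT_fd (h : Integrable α μ) (h' : Integrable (fun z => ‖z‖ * ‖α z‖) μ) (y : V) :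
    ∃ L : V →L[ℝ] ℂ, HasFDerivAt (FT μ α) L y ∧
      ∀ v, L v = I * FT μ (fun z => mdot v z * α z) y := by
  have m (y : V) : AEStronglyMeasurable (fun z => (α z * (ep z y * I)) • La z) μ :=
    (h.1.mul ((cont_ep2 y).mul continuous_const).aestronglyMeasurable).smul
      La.continuous.aestronglyMeasurable
  have b (y z : V) : ‖(α z * (ep z y * I)) • La z‖ ≤ ‖La‖ * (‖z‖ * ‖α z‖) := by
    rw [norm_smul, norm_mul, norm_mul, norm_ep, Complex.norm_I, mul_one, mul_one, ← mul_assoc,
      mul_comm]
    exact mul_le_mul_of_nonneg_right (La.le_opNorm z) (norm_nonneg _)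
  refine ⟨_, hasFDerivAt_integral_of_dominated_of_fderiv_le (𝕜 := ℝ) (s := Set.univ)
    (F' := fun y z => (α z * (ep z y * I)) • La z) univ_mem
    (.of_forall fun y => (int_ep h y).1) (int_ep h y) (m y) (.of_forall fun z y _ => b y z)
    (h'.const_mul _) (.of_forall fun z y _ => ?_), fun v => ?_⟩
  · have := (ep_fd z y).const_mul (α z)
    rwa [smul_smul] at this
  · rw [ContinuousLinearMap.integral_apply ((h'.const_mul _).mono' (m y) (.of_forall (b y))), FT,
      ← integral_const_mul]
    congr 1 with z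
    rw [ContinuousLinearMap.smul_apply, La_ap, md_comm, smul_eq_mul]
    ring

theorem ft_FT (f : Fn) : ft f = FT volume f := by
  funext p
  simp only [ft_ep, FT, ep_comm p]

variable {g : Fn}

theorem ep_neg (q x : V) : ep (-q) x = ep q (-x) := by unfold ep; rw [md_neg, md_neg_l]

theorem iw (hg : IsTest g) : Integrable (fun z => ‖z‖ * ‖g z‖) Om := by
  have := (int_om hg (u := fun z => (‖z‖ : ℝ)) (by fun_prop) (C := 1) (N := 1)
    fun p => by simp).norm
  simpa using this

theorem im (hg : IsTest g) (m : Ix) : Integrable (fun z => (z m : ℂ) * g z) Om :=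
  test_om (test_x m hg)

theorem uu_eq (hg : IsTest g) (x : V) :
    uu g x = FT Om (ft g) (-x) - FT Om (fun q => ft g (-q)) x := by
  simp only [uu, FT, ep_neg]
  exact integral_sub (int_ep (ft_om hg) _) (int_ep (ft_om_neg hg) _)

theorem wv_eq (hg : IsTest g) (m : Ix) (x : V) : wv g m x =
    FT Om (fun q => q m * ft g q) (-x) + FT Om (fun q => q m * ft g (-q)) x := by
  simp only [wv, FT, ep_neg, mul_add, ← mul_assoc]
  exact integral_add (int_ep (im (test_ft hg) m) _) (int_ep (im (test_neg (test_ft hg)) m) _)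

theorem cont_uu (hg : IsTest g) : Continuous (uu g) := by
  rw [funext (uu_eq hg)]
  exact ((cont_FT (ft_om hg)).comp continuous_neg).sub (cont_FT (ft_om_neg hg))

theorem cont_wv (hg : IsTest g) (m : Ix) : Continuous (wv g m) := by
  rw [funext (wv_eq hg m)]
  exact ((cont_FT (im (test_ft hg) m)).comp continuous_neg).add
    (cont_FT (im (test_neg (test_ft hg)) m))

theorem FT_bas (m : Ix) (y : V) :
    FT μ (fun z => mdot (bas m 1) z * α z) y = eta m * FT μ (fun z => z m * α z) y := by
  simp only [FT, ← integral_const_mul, md_comm (bas m 1), md_bas, Complex.ofReal_mul, mul_assoc]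

theorem uu_fd (hg : IsTest g) (x : V) : ∃ L : V →L[ℝ] ℂ, HasFDerivAt (uu g) L x ∧
    ∀ m, L (bas m 1) = -I * eta m * wv g m x := by
  obtain ⟨L, h1, h2⟩ := FT_fd (ft_om hg) (iw (test_ft hg)) (-x)
  obtain ⟨L', h1', h2'⟩ := FT_fd (ft_om_neg hg) (iw (test_neg (test_ft hg))) x
  rw [funext (uu_eq hg)]
  refine ⟨_, (h1.comp x (hasFDerivAt_id x).neg).sub h1', fun m => ?_⟩
  simp only [ContinuousLinearMap.sub_apply, ContinuousLinearMap.comp_apply,
    ContinuousLinearMap.neg_apply, ContinuousLinearMap.id_apply, map_neg]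
  simp only [h2, h2', FT_bas, wv_eq hg]
  ring

/-- finite speed of propagation -/
theorem far (hg : IsTest g) {ρ A : ℝ} (hρ : tsupport g ⊆ Metric.closedBall 0 ρ) {x : V}
    (h1 : |x o| < A) (h2 : A + 2 * |ρ| < ‖x‖) : uu g x = 0 := by
  refine pj_pt hg fun y hy => ?_
  have hy : ‖y‖ ≤ |ρ| := (mem_closedBall_zero_iff.1 (hρ hy)).trans (le_abs_self ρ)
  have r0 := abs_nonneg ρ
  obtain ⟨j, hj⟩ : ∃ j, A + 2 * |ρ| < |x j| := by
    by_contra h
    push Not at h
    exact h2.not_ge ((pi_norm_le_iff_of_nonneg (by linarith [abs_nonneg (x o)])).2 h)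
  have a0 : |x o - y o| < A + |ρ| :=
    (abs_sub _ _).trans_lt (by linarith [(norm_le_pi_norm y o).trans hy, Real.norm_eq_abs (y o)])
  have aj : A + |ρ| < |x j - y j| := by
    linarith [abs_sub_abs_le_abs_sub (x j) (y j), (norm_le_pi_norm y j).trans hy,
      Real.norm_eq_abs (y j)]
  have sq : (x o - y o) * (x o - y o) < (x j - y j) * (x j - y j) :=
    abs_lt_iff_mul_self_lt.1 (a0.trans aj)
  rw [Cn.mdot_eq]
  revert hj sq
  refine Fin.cases (fun hj _ => absurd h1 (by
    show ¬ |x 0| < A
    linarith)) (fun i _ sq => ?_) j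
  have := Finset.single_le_sum (f := fun i : Fin 3 => (x - y) i.succ * (x - y) i.succ)
    (fun i _ => mul_self_nonneg _) (Finset.mem_univ i)
  simp only [Pi.sub_apply] at this ⊢
  linarith

theorem far' (hg : IsTest g) {ρ A : ℝ} (hρ : tsupport g ⊆ Metric.closedBall 0 ρ) {x : V}
    (h1 : |x o| < A) (h2 : A + 2 * |ρ| < ‖x‖) (m : Ix) : wv g m x = 0 := by
  obtain ⟨L, h3, h4⟩ := uu_fd hg x
  have e : uu g =ᶠ[𝓝 x] fun _ => 0 := by
    filter_upwards [(isOpen_lt (continuous_apply o).abs continuous_const).mem_nhds h1,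
      (isOpen_lt continuous_const continuous_norm).mem_nhds h2] with y a b using far hg hρ a b
  have z := h3.unique ((hasFDerivAt_const (0 : ℂ) x).congr_of_eventuallyEq e)
  have := h4 m
  rw [z, ContinuousLinearMap.zero_apply] at this
  have n : (eta m : ℂ) ≠ 0 := by unfold eta; split_ifs <;> norm_num
  exact (mul_eq_zero.1 this.symm).resolve_left (mul_ne_zero (neg_ne_zero.2 Complex.I_ne_zero) n)

/-- continuous with compact support -/
def Cc (f : Fn) : Prop := Continuous f ∧ HasCompactSupport f

theorem Cc.int {f k : Fn} (h : Cc f) (hk : Continuous k) : Integrable fun x => f x * k x :=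
  (h.1.mul hk).integrable_of_hasCompactSupport h.2.mul_right

theorem Cc.int0 {f : Fn} (h : Cc f) : Integrable f := h.1.integrable_of_hasCompactSupport h.2

theorem Cc.iw {f : Fn} (h : Cc f) : Integrable fun z => ‖z‖ * ‖f z‖ :=
  (continuous_norm.mul h.1.norm).integrable_of_hasCompactSupport h.2.norm.mul_left

/-- integration by parts -/
theorem parts {f f' k k' : Fn} {v : V} (hf : Cc f) (hf' : Cc f') (hk : Continuous k)
    (hk' : Continuous k') (d : ∀ x, HasLineDerivAt ℝ f (f' x) x v)
    (d' : ∀ x, HasLineDerivAt ℝ k (k' x) x v) : ∫ x, f' x * k x = -∫ x, f x * k' x := by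
  rw [eq_neg_iff_add_eq_zero, add_comm, ← eq_neg_iff_add_eq_zero]
  exact integral_bilinear_hasLineDerivAt_right_eq_neg_left_of_integrable
    (B := ContinuousLinearMap.mul ℝ ℂ) (hf'.int hk) (hf.int hk') (hf.int hk) (fun x _ => d x)
    fun x _ => d' x

/-- a function that vanishes on the cone has no tangential derivative -/
theorem tang {Ψ : Fn} {L : V →L[ℝ] ℂ} {p v : V} (h : HasFDerivAt Ψ L p)
    (z : ∀ q, mdot q q = 0 → Ψ q = 0) (hp : mdot p p = 0) (h0 : p o ≠ 0) (hv : mdot p v = 0) :
    L v = 0 := by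
  let n : V := (2 * p o) • bas o 1 - p
  have b0 : mdot (bas o 1) (bas o 1) = 1 := by simp [md_bas, bas, eta]
  have bp : mdot p (bas o 1) = p o := by simp [md_bas, eta]
  have pn : mdot p n = 2 * p o * p o := by simp only [n, md_sub, md_smul, bp, hp, sub_zero]
  have nn : mdot n n = 0 := by
    simp only [n, md_sub, md_sub_l, md_smul, md_smul_l, b0, bp, hp, md_comm (bas o 1) p]
    ring
  have pn0 : mdot p n ≠ 0 := by rw [pn]; positivity
  let c : ℝ → ℝ := fun t => t ^ 2 * mdot v v / (2 * (mdot p n + t * mdot v n))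
  have dc : HasDerivAt c 0 0 := by
    have := (((hasDerivAt_id (0 : ℝ)).pow 2).mul_const (mdot v v)).div
      ((((hasDerivAt_id (0 : ℝ)).mul_const (mdot v n)).const_add (mdot p n)).const_mul 2)
      (by simpa using pn0)
    exact this.congr_deriv (by simp)
  have dγ : HasDerivAt (fun t : ℝ => p + t • v - c t • n) v 0 := by
    exact ((((hasDerivAt_id (0 : ℝ)).smul_const v).const_add p).sub
      (dc.smul_const n)).congr_deriv (by simp)
  have e : (fun t : ℝ => Ψ (p + t • v - c t • n)) =ᶠ[𝓝 0] fun _ => 0 := by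
    have : ContinuousAt (fun t : ℝ => mdot p n + t * mdot v n) 0 := by fun_prop
    filter_upwards [this.eventually_ne (by simpa using pn0)] with t ht
    refine z _ ?_
    simp only [md_sub, md_sub_l, md_add, md_add_l, md_smul, md_smul_l, hp, hv, nn, md_comm v p,
      md_comm n p, md_comm n v, c]
    field_simp
    ring
  have h' : HasFDerivAt Ψ L (p + (0 : ℝ) • v - c 0 • n) := by simpa [c] using h
  exact (h'.comp_hasDerivAt 0 dγ).unique ((hasDerivAt_const (0 : ℝ) (0 : ℂ)).congr_of_eventuallyEq e)

theorem aff {f : Fn} (h : Cc f) (α β : ℂ) (v p : V) : ∫ x, f x * ((α + β * mdot v x) * ep p x) =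
    α * FT volume f p + β * FT volume (fun z => mdot v z * f z) p := by
  have c : Continuous fun z : V => (mdot v z : ℂ) := (La v).continuous
  have i2 : Integrable fun z => (mdot v z : ℂ) * f z := by simpa only [mul_comm] using h.int c
  simp only [FT]
  rw [← integral_const_mul, ← integral_const_mul,
    ← integral_add ((int_ep h.int0 p).const_mul _) ((int_ep i2 p).const_mul _)]
  congr 1 with x
  rw [ep_comm p x]
  ring

theorem ld_ep (p x : V) (m : Ix) :
    HasDerivAt (fun t : ℝ => ep p (x + t • bas m 1)) (ep p x * (I * (eta m * p m))) 0 := by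
  refine ((ep_fd p x).hasLineDerivAt (bas m 1)).congr_deriv ?_
  rw [ContinuousLinearMap.smul_apply, La_ap, md_bas, smul_eq_mul]
  push_cast
  ring

theorem core (hg : IsTest g) {ρ A : ℝ} (hρ : tsupport g ⊆ Metric.closedBall 0 ρ) {a : ℝ → ℝ}
    (ha : Continuous a) (hA : ∀ t, a t ≠ 0 → |t| < A) (h1 : ∫ t, a t = 1) {X : V → V}
    (hX : IsSim 0 X) {p : V} (hp : mdot p p = 0) :
    ∑ n, ∫ x, ((eta n : ℂ) * X x n * a (x o)) * ep p x * (p o * wv g n x +
      p n * wv g o x - bas o (eta o) n * ∑ k, eta k * p k * wv g k x) =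
      I * (2 * π) ^ 3 * ft (fun x => ∑ n, X x n * pd n g x) p := by
  obtain ⟨c, w, hw, hX⟩ := hX
  have ca : Continuous fun x : V => (a (x o) : ℂ) := by fun_prop
  have cc {u : Fn} (hu : Continuous u) (z : ∀ x, |x o| < A → A + 2 * |ρ| < ‖x‖ → u x = 0) :
      Cc fun x => a (x o) * u x := by
    refine ⟨ca.mul hu, HasCompactSupport.intro (isCompact_closedBall 0 (A + 2 * |ρ|)) fun x hx => ?_⟩
    by_cases h : a (x o) = 0
    · simp [h]
    · rw [z x (hA _ h) (by simpa using hx), mul_zero]
  have cU := cc (cont_uu hg) fun x => far hg hρ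
  have cW (m : Ix) := cc (cont_wv hg m) fun x h h' => far' hg hρ h h' m
  have cg : Cc g := ⟨test_cont hg,
    (isCompact_closedBall 0 ρ).of_isClosed_subset (isClosed_tsupport _) hρ⟩
  have cd (m : Ix) : Cc (pd m g) := ⟨test_cont (test_pd hg m),
    cg.2.of_isClosed_subset (isClosed_tsupport _) (tsupport_pd hg m)⟩
  have cX (n : Ix) : Continuous fun x : V => (X x n : ℂ) := by simp only [hX]; fun_prop
  have ce := cont_ep1 p
  have dX (x : V) (m n : Ix) : HasDerivAt (fun t : ℝ => (X (x + t • bas m 1) n : ℂ)) (w m n) 0 := by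
    have : ∀ t : ℝ, X (x + t • bas m 1) n = X x n + t * w m n := fun t => by
      simp [hX, bas, add_mul, Finset.sum_add_distrib, add_assoc]
    simp only [this]
    exact (((hasDerivAt_id (0 : ℝ)).mul_const (w m n)).const_add (X x n)).ofReal_comp.congr_deriv
      (by simp)
  have wd (m : Ix) : w m m = 0 := by
    have := hw m m
    have e : eta m ≠ 0 := by unfold eta; split_ifs <;> norm_num
    exact (mul_eq_zero.1 (by linarith : eta m * w m m = 0)).resolve_left e
  let v : V := fun m => -∑ n, p n * w n m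
  have e01 : w 0 1 = w 1 0 := by symm; simpa [eta, o] using hw 1 0
  have e02 : w 0 2 = w 2 0 := by symm; simpa [eta, o] using hw 2 0
  have e03 : w 0 3 = w 3 0 := by symm; simpa [eta, o] using hw 3 0
  have e12 : w 1 2 = -w 2 1 := by have := hw 1 2; simp [eta, o] at this; linarith
  have e13 : w 1 3 = -w 3 1 := by have := hw 1 3; simp [eta, o] at this; linarith
  have e23 : w 2 3 = -w 3 2 := by have := hw 2 3; simp [eta, o] at this; linarith
  have md (x y : V) : mdot x y = x 0 * y 0 - x 1 * y 1 - x 2 * y 2 - x 3 * y 3 := by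
    simp [mdot, eta, o, Fin.sum_univ_four]; ring
  have hs (x : V) : mdot p (X x) = mdot p c + mdot v x := by
    simp only [md, hX, v, Fin.sum_univ_four, wd, e01, e02, e03, e12, e13, e23]; ring
  have pv : mdot p v = 0 := by
    simp only [md, v, Fin.sum_univ_four, wd, e01, e02, e03, e12, e13, e23]; ring
  have hpc : ((p 0 : ℂ) * p 0 - p 1 * p 1 - p 2 * p 2 - p 3 * p 3) = 0 := by
    rw [md] at hp; exact_mod_cast hp
  have hsc (x : V) : (p 0 : ℂ) * X x 0 - p 1 * X x 1 - p 2 * X x 2 - p 3 * X x 3 =
      mdot p c + mdot v x := by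
    have := hs x
    rw [md] at this
    exact_mod_cast this
  have et : (eta 0 : ℂ) = 1 ∧ (eta 1 : ℂ) = -1 ∧ (eta 2 : ℂ) = -1 ∧ (eta 3 : ℂ) = -1 := by
    simp [eta, o]
  -- the Cauchy identity and its tangential derivative
  have C (q : V) (hq : mdot q q = 0) : q o * FT volume (fun x => a (x o) * uu g x) q +
      FT volume (fun x => a (x o) * wv g o x) q - (2 * π) ^ 3 * FT volume g q = 0 := by
    have i1 := (int_ep cU.int0 q).const_mul (q o)
    have i2 := int_ep (cW o).int0 q
    have e : (fun x => (a (x o) : ℂ) * ep q x * (q o * uu g x + wv g o x)) = fun x =>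
        q o * (a (x o) * uu g x * ep x q) + a (x o) * wv g o x * ep x q := by
      funext x; rw [ep_comm q x]; ring
    have := Br.cauchy hg (Ct.hs_ft hg) h1 hq (e ▸ i1.add i2)
    rw [e, integral_add i1 i2, integral_const_mul, ft_FT] at this
    exact sub_eq_zero.2 this
  obtain ⟨L1, d1, l1⟩ := FT_fd cU.int0 cU.iw p
  obtain ⟨L2, d2, l2⟩ := FT_fd (cW o).int0 (cW o).iw p
  obtain ⟨L3, d3, l3⟩ := FT_fd cg.int0 cg.iw p
  have d0 : HasFDerivAt (fun q : V => (q o : ℂ))
      (Complex.ofRealCLM ∘L ContinuousLinearMap.proj o) p :=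
    (Complex.ofRealCLM ∘L ContinuousLinearMap.proj (R := ℝ) (φ := fun _ : Ix => ℝ) o).hasFDerivAt
  have d := ((d0.mul d1).add d2).sub (d3.const_mul ((2 * π) ^ 3))
  have T : _ = (0 : ℂ) := if h0 : p o = 0 then by
      have : v = 0 := by
        rw [md, show p 0 = 0 from h0] at hp
        have p1 : p 1 = 0 := by nlinarith [mul_self_nonneg (p 2), mul_self_nonneg (p 3)]
        have p2 : p 2 = 0 := by nlinarith [mul_self_nonneg (p 1), mul_self_nonneg (p 3)]
        have p3 : p 3 = 0 := by nlinarith [mul_self_nonneg (p 1), mul_self_nonneg (p 2)]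
        funext m
        simp [v, Fin.sum_univ_four, show p 0 = 0 from h0, p1, p2, p3]
      rw [this, map_zero]
    else tang d C hp h0 pv
  simp only [ContinuousLinearMap.sub_apply, ContinuousLinearMap.add_apply,
    ContinuousLinearMap.smul_apply, ContinuousLinearMap.comp_apply, ContinuousLinearMap.proj_apply,
    Complex.ofRealCLM_apply, l1, l2, l3, smul_eq_mul] at T
  -- parts on the left
  let k : Ix → V → ℂ := fun m x => (p o * X x m - X x o * p m) * ep p x
  let k' : Ix → V → ℂ := fun m x => (p o * w m m - w m o * p m) * ep p x +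
    (p o * X x m - X x o * p m) * (ep p x * (I * (eta m * p m)))
  have ck (m : Ix) : Continuous (k m) := by have := cX m; have := cX o; fun_prop
  have ck' (m : Ix) : Continuous (k' m) := by have := cX m; have := cX o; fun_prop
  have P (m : Ix) : ∫ x, (-I * eta m * (a (x o) * wv g m x)) * k m x =
      -∫ x, a (x o) * uu g x * k' m x := by
    by_cases hm : m = o
    · subst hm
      simp [k, k', mul_comm]
    refine parts (v := bas m 1) cU ⟨continuous_const.mul (cW m).1, (cW m).2.mul_left⟩ (ck m) (ck' m)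
      (fun x => ?_) fun x => ?_
    · obtain ⟨L, h3, h4⟩ := uu_fd hg x
      have : ∀ t : ℝ, (x + t • bas m 1) o = x o := fun t => by simp [bas, Ne.symm hm]
      unfold HasLineDerivAt
      simp only [this]
      exact (HasDerivAt.const_mul _ (h3.hasLineDerivAt (bas m 1))).congr_deriv (by rw [h4]; ring)
    · exact ((((dX x m m).const_mul _).sub ((dX x m o).mul_const _)).mul
        (ld_ep p x m)).congr_deriv (by simp [k'])
  have iP (m : Ix) : Integrable fun x => (-I * eta m * (a (x o) * wv g m x)) * k m x :=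
    Cc.int ⟨continuous_const.mul (cW m).1, (cW m).2.mul_left⟩ (ck m)
  have cv : Continuous fun z : V => (mdot v z : ℂ) := (La v).continuous
  have i0 : Integrable fun x => a (x o) * wv g o x * ((mdot p c + 1 * mdot v x) * ep p x) :=
    (cW o).int (by fun_prop)
  have iL (n : Ix) : Integrable fun x => ((eta n : ℂ) * X x n * a (x o)) * ep p x * (p o * wv g n x +
      p n * wv g o x - bas o (eta o) n * ∑ k, eta k * p k * wv g k x) := by
    have cn : Continuous fun x => (eta n : ℂ) * X x n * ep p x := by have := cX n; fun_prop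
    refine (((((cW n).int cn).const_mul (p o)).add (((cW o).int cn).const_mul (p n))).sub
      ((integrable_finset_sum Finset.univ fun k _ => ((cW k).int cn).const_mul
        (eta k * p k)).const_mul (bas o (eta o) n))).congr (.of_forall fun x => ?_)
    simp only [Pi.add_apply, Pi.sub_apply, Fin.sum_univ_four]
    ring
  have E1 : ∑ n, ∫ x, ((eta n : ℂ) * X x n * a (x o)) * ep p x * (p o * wv g n x +
      p n * wv g o x - bas o (eta o) n * ∑ k, eta k * p k * wv g k x) =
      (∫ x, a (x o) * wv g o x * ((mdot p c + 1 * mdot v x) * ep p x)) +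
        I * ∑ m, ∫ x, (-I * eta m * (a (x o) * wv g m x)) * k m x := by
    rw [← integral_finset_sum _ fun n _ => iL n, ← integral_finset_sum _ fun n _ => iP n,
      ← integral_const_mul, ← integral_add i0
        ((integrable_finset_sum _ fun n _ => iP n).const_mul _)]
    congr 1 with x
    have b : (bas 0 (eta 0) 0 : ℂ) = 1 ∧ (bas 0 (eta 0) 1 : ℂ) = 0 ∧ (bas 0 (eta 0) 2 : ℂ) = 0 ∧
        (bas 0 (eta 0) 3 : ℂ) = 0 := by simp [bas, eta, o]
    simp only [Fin.sum_univ_four, b, et, k, one_mul, ← hsc x, show o = 0 from rfl]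
    linear_combination (a (x 0) * ep p x * (wv g 1 x * (p 0 * X x 1 - X x 0 * p 1) +
      wv g 2 x * (p 0 * X x 2 - X x 0 * p 2) + wv g 3 x * (p 0 * X x 3 - X x 0 * p 3))) *
        -Complex.I_sq
  have E2 : ∑ m, ∫ x, a (x o) * uu g x * k' m x = ∫ x, a (x o) * uu g x *
      (((v o + I * p o * mdot p c) + I * p o * mdot v x) * ep p x) := by
    rw [← integral_finset_sum _ fun n _ => cU.int (ck' n)]
    congr 1 with x
    have v0 : (v 0 : ℂ) = -(p 1 * w 1 0 + p 2 * w 2 0 + p 3 * w 3 0) := by
      simp [v, Fin.sum_univ_four, wd]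
    simp only [Fin.sum_univ_four, et, k', wd, v0, show o = 0 from rfl]
    push_cast
    linear_combination (a (x 0) * uu g x * ep p x * I * p 0) * hsc x -
      (a (x 0) * uu g x * ep p x * I * X x 0) * hpc
  -- parts on the right
  have Q (n : Ix) : ∫ x, pd n g x * (X x n * ep p x) =
      -∫ x, g x * (X x n * (ep p x * (I * (eta n * p n)))) := by
    have := cX n
    refine parts (v := bas n 1) cg (cd n) (by fun_prop) (by fun_prop) (fun x => ?_) fun x => ?_
    · rw [pd_at (test_diff hg x)]
      exact (test_diff hg x).hasFDerivAt.hasLineDerivAt _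
    · exact ((dX x n n).mul (ld_ep p x n)).congr_deriv (by simp [wd])
  have E3 : ft (fun x => ∑ n, X x n * pd n g x) p =
      -∫ x, g x * ((I * mdot p c + I * mdot v x) * ep p x) := by
    have c1 (n : Ix) : Continuous fun x => (X x n : ℂ) * ep p x := (cX n).mul ce
    have c2 (n : Ix) : Continuous fun x => (X x n : ℂ) * (ep p x * (I * (eta n * p n))) :=
      (cX n).mul (ce.mul continuous_const)
    calc _ = ∑ n, ∫ x, pd n g x * (X x n * ep p x) := by
          rw [← integral_finset_sum _ fun n _ => (cd n).int (c1 n), ft_ep]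
          congr 1 with x
          simp only [Fin.sum_univ_four]
          ring
      _ = _ := by
          simp only [Q, Finset.sum_neg_distrib]
          rw [← integral_finset_sum _ fun n _ => cg.int (c2 n)]
          congr 2 with x
          simp only [Fin.sum_univ_four, et]
          linear_combination (g x * ep p x * I) * hsc x
  rw [E1, E3]
  simp only [P, Finset.sum_neg_distrib]
  rw [E2, aff cU, aff (cW o), aff cg]
  linear_combination (mdot p c : ℂ) * C p hp - I * T + (mdot p c * ((2 * π) ^ 3 * FT volume g p -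
    p o * FT volume (fun x => a (x o) * uu g x) p) +
      FT volume (fun z => mdot v z * (a (z o) * wv g o z)) p) * Complex.I_sq

/-- **the Noether identity** -/
theorem noe : Br.NOE := by
  rintro F X ⟨a, c, sa, -, h1, hc, hF⟩ hX ρ
  obtain ⟨A, hA⟩ := sa.isCompact.isBounded.subset_ball (0 : ℝ)
  obtain ⟨δ, δ0, hδ⟩ := Metric.eventually_nhds_iff.1 hc
  have hA' : ∀ t, a t ≠ 0 → |t| < A := fun t ht => by simpa using hA (subset_tsupport a ht)
  have ca : Continuous a := by
    have e : a = fun t => (F 1 (bas o t)).re := funext fun t => by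
      have : (fun n => if n = o then 0 else bas o t n / 1) = (0 : V) := by
        funext n
        by_cases h : n = o <;> simp [bas, h]
      rw [(hF 1 one_pos).2, this, hc.self_of_nhds]
      simp [bas]
    rw [e]
    exact Complex.continuous_re.comp ((test_cont (hF 1 one_pos).1).comp
      (continuous_pi fun n => by unfold bas; split_ifs <;> fun_prop))
  refine ⟨(|A| + 2 * |ρ| + 1) / δ, fun R hR g hg hρ p hp => ?_⟩
  have R0 : 0 < R := lt_of_lt_of_le (by positivity) hR
  rw [← core hg hρ ca hA' h1 hX hp]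
  refine Finset.sum_congr rfl fun n _ => congrArg _ (funext fun x => ?_)
  rw [(hF R R0).2]
  by_cases h : a (x o) = 0
  · simp [h]
  by_cases h' : A + 2 * |ρ| < ‖x‖
  · simp [far' hg hρ (hA' _ h) h']
  rw [hδ, Complex.ofReal_one, mul_one]
  rw [dist_zero_right, pi_norm_lt_iff δ0]
  intro i
  split_ifs
  · simpa using δ0
  · rw [norm_div, Real.norm_of_nonneg R0.le, div_lt_iff₀ R0]
    have := (div_le_iff₀ δ0).1 hR
    linarith [norm_le_pi_norm x i, le_abs_self A, mul_comm R δ]

end Vale.Agent.P352W.Ch.Nb
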